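import Vale.Agent.P274.Full.SA.Basic
import Vale.Agent.P274.Full.Stmts
import Mathlib.Algebra.MvPolynomial.Funext
import Mathlib.Analysis.Real.Cardinality
import Mathlib.Topology.Algebra.MvPolynomial
import Mathlib.Topology.Algebra.Order.Field

/-!
Semialgebraic sets without interior lie in the zero set of a nonzero polynomial.
-/

namespace Vale.Agent.P274.Full

open Set Filter Topology MvPolynomial

noncomputable section

variable {ι : Type} [Fintype ι]

omit [Fintype ι] in
theorem sign_eventually {g : (ι → ℝ) → ℝ} {x : ι → ℝ} (hg : ContinuousAt g x) (h : g x ≠ 0) :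
    ∀ᶠ y in 𝓝 x, SignType.sign (g y) = SignType.sign (g x) := by
  rcases lt_or_gt_of_ne h with h | h
  · filter_upwards [hg.eventually_mem (Iio_mem_nhds h)] with u hu
    rw [sign_neg h, sign_neg hu]
  · filter_upwards [hg.eventually_mem (Ioi_mem_nhds h)] with u hu
    rw [sign_pos h, sign_pos hu]

/-- A polynomial vanishing on an open set is zero. -/
theorem poly_eq_zero_of_eventually {p : MvPolynomial ι ℝ} {x : ι → ℝ}
    (h : ∀ᶠ y in 𝓝 x, eval y p = 0) : p = 0 := by
  obtain ⟨r, hr, hball⟩ := Metric.eventually_nhds_iff_ball.1 h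
  refine MvPolynomial.funext_set (fun i => Metric.ball (x i) r) (fun i => ?_) fun y hy => ?_
  · rw [Real.ball_eq_Ioo]
    exact Set.Ioo_infinite (by linarith)
  · rw [hball y (by rw [ball_pi x hr]; exact hy), map_zero]

theorem dense_ne_zero {p : MvPolynomial ι ℝ} (hp : p ≠ 0) :
    Dense {x : ι → ℝ | eval x p ≠ 0} := by
  intro x
  by_contra hx
  refine hp (poly_eq_zero_of_eventually (x := x) ?_)
  obtain ⟨U, hU, hUo, hxU⟩ : ∃ U, (∀ y ∈ U, eval y p = 0) ∧ IsOpen U ∧ x ∈ U :=
    ⟨(closure {x : ι → ℝ | eval x p ≠ 0})ᶜ,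
      fun y hy => by_contra fun h => hy (subset_closure h), isClosed_closure.isOpen_compl, hx⟩
  exact eventually_of_mem (hUo.mem_nhds hxU) hU

/-- A semialgebraic set without interior lies in the zero set of a nonzero polynomial. -/
theorem SA.exists_poly_of_interior_empty {S : Set (ι → ℝ)} (h : SA S) (hi : interior S = ∅) :
    ∃ p : MvPolynomial ι ℝ, p ≠ 0 ∧ ∀ x ∈ S, eval x p = 0 := by
  classical
  obtain ⟨l, P, T, hT⟩ := h
  refine ⟨∏ i ∈ Finset.univ.filter (fun i => P i ≠ 0), P i,
    Finset.prod_ne_zero_iff.2 fun i hi' => (Finset.mem_filter.1 hi').2, fun x hx => ?_⟩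
  by_contra hne
  rw [map_prod] at hne
  replace hne := Finset.prod_ne_zero_iff.1 hne
  have hev : ∀ i, ∀ᶠ y in 𝓝 x, SignType.sign (eval y (P i)) = SignType.sign (eval x (P i)) := by
    intro i
    by_cases hP : P i = 0
    · exact Eventually.of_forall fun y => by simp [hP]
    · exact sign_eventually (MvPolynomial.continuous_eval (P i)).continuousAt
        (hne i (Finset.mem_filter.2 ⟨Finset.mem_univ i, hP⟩))
  have hmem : S ∈ 𝓝 x := by
    filter_upwards [eventually_all.2 hev] with y hy
    rw [hT] at hx ⊢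
    convert hx using 1
    exact funext hy
  exact (Set.eq_empty_iff_forall_notMem.1 hi) x (mem_interior_iff_mem_nhds.2 hmem)

/-- A semialgebraic set without interior is nowhere dense. -/
theorem saInterior : SAInteriorStmt := by
  intro ι _ S hS hi
  obtain ⟨p, hp, hp0⟩ := hS.exists_poly_of_interior_empty hi
  refine Set.eq_empty_iff_forall_notMem.2 fun x hx => hp (poly_eq_zero_of_eventually (x := x) ?_)
  have hsub : closure S ⊆ {y | eval y p = 0} :=
    closure_minimal hp0 (isClosed_eq (MvPolynomial.continuous_eval p) continuous_const)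
  exact eventually_of_mem (mem_interior_iff_mem_nhds.1 hx) hsub

end

end Vale.Agent.P274.Full
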