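import Vale.Agent.P274.Full.SA.Basic
import Vale.Agent.P274.Full.Stmts
import Mathlib.Algebra.Polynomial.RingDivision
import Mathlib.Topology.Algebra.Polynomial

/-!
The sign of a polynomial is eventually constant to the right of a point.
-/

namespace Vale.Agent.P274.Full

open Set Filter Topology
open scoped Polynomial

noncomputable section

theorem poly_sign_eventually_right (p : ℝ[X]) (a : ℝ) :
    ∃ s : SignType, ∀ᶠ t in 𝓝[>] a, SignType.sign (p.eval t) = s := by
  rcases eq_or_ne p 0 with rfl | hp
  · exact ⟨0, Eventually.of_forall fun t => by simp⟩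
  obtain ⟨g, hg, hgd⟩ := p.exists_eq_pow_rootMultiplicity_mul_and_not_dvd hp a
  have hga : g.eval a ≠ 0 := fun h => hgd (Polynomial.dvd_iff_isRoot.2 h)
  refine ⟨SignType.sign (g.eval a), ?_⟩
  have hc : ∀ᶠ t in 𝓝 a, SignType.sign (g.eval t) = SignType.sign (g.eval a) := by
    rcases lt_or_gt_of_ne hga with h | h
    · filter_upwards [g.continuous.continuousAt.eventually_mem (Iio_mem_nhds h)] with u hu
      rw [sign_neg h, sign_neg hu]
    · filter_upwards [g.continuous.continuousAt.eventually_mem (Ioi_mem_nhds h)] with u hu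
      rw [sign_pos h, sign_pos hu]
  filter_upwards [hc.filter_mono nhdsWithin_le_nhds, self_mem_nhdsWithin] with t ht hta
  rw [hg]
  simp only [Polynomial.eval_mul, Polynomial.eval_pow, Polynomial.eval_sub, Polynomial.eval_X,
    Polynomial.eval_C, sign_mul, ht]
  rw [sign_pos (pow_pos (sub_pos.2 hta) _), one_mul]

/-- A semialgebraic set of parameters contains all small positive numbers or none. -/
theorem saTail : SATailStmt := by
  intro ι _ S hS x
  obtain ⟨l, P, T, hT⟩ := hS
  have h : ∀ i, ∃ s : SignType, ∀ᶠ t in 𝓝[>] (0 : ℝ),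
      SignType.sign (MvPolynomial.eval (Sum.elim x fun _ => t) (P i)) = s := by
    intro i
    obtain ⟨s, hs⟩ := poly_sign_eventually_right (MvPolynomial.eval₂ Polynomial.C
      (Sum.elim (fun j => Polynomial.C (x j)) fun _ => Polynomial.X) (P i)) 0
    refine ⟨s, hs.mono fun t ht => ?_⟩
    have e : (MvPolynomial.eval₂ Polynomial.C (Sum.elim (fun j => Polynomial.C (x j))
        fun _ => Polynomial.X) (P i)).eval t = MvPolynomial.eval (Sum.elim x fun _ => t) (P i) := by
      rw [← Polynomial.coe_evalRingHom, MvPolynomial.eval₂_comp_left]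
      congr 1
      · ext r; simp
      · funext j; cases j <;> simp
    rw [← e]; exact ht
  choose s hs using h
  by_cases hT' : s ∈ T
  · refine Or.inl ((eventually_all.2 hs).mono fun t ht => ?_)
    rw [hT, funext ht]; exact hT'
  · refine Or.inr ((eventually_all.2 hs).mono fun t ht => ?_)
    rw [hT, funext ht]; exact hT'

end

end Vale.Agent.P274.Full
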