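import Vale.Agent.P274.Full.SA
import Mathlib.Algebra.MvPolynomial.Monad
import Mathlib.Algebra.MvPolynomial.Rename

/-!
Closure properties of semialgebraic sets.
-/

namespace Vale.Agent.P274.Full

open Set MvPolynomial

noncomputable section

variable {ι κ : Type} [Fintype ι] [Fintype κ]

/-- The signs of finitely many polynomials give a semialgebraic set, whatever their index. -/
theorem SA.of_signs {J : Type*} [Finite J] (P : J → MvPolynomial ι ℝ) (T : Set (J → SignType))
    {S : Set (ι → ℝ)} (h : ∀ x, x ∈ S ↔ (fun j => SignType.sign (eval x (P j))) ∈ T) : SA S := by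
  obtain ⟨l, ⟨e⟩⟩ := Finite.exists_equiv_fin J
  refine ⟨l, P ∘ e.symm, {v | v ∘ e ∈ T}, fun x => ?_⟩
  rw [h]
  simp [Function.comp_def]

/-- A set that only depends on the signs of finitely many polynomials is semialgebraic. -/
theorem SA.of_determined {J : Type*} [Finite J] (P : J → MvPolynomial ι ℝ) {S : Set (ι → ℝ)}
    (h : ∀ x y, (∀ j, SignType.sign (eval x (P j)) = SignType.sign (eval y (P j))) →
      x ∈ S → y ∈ S) : SA S := by
  refine SA.of_signs P ((fun x j => SignType.sign (eval x (P j))) '' S) fun y => ⟨fun hy =>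
    ⟨y, hy, rfl⟩, ?_⟩
  rintro ⟨x, hx, he⟩
  exact h x y (congrFun he) hx

theorem SA.empty : SA (∅ : Set (ι → ℝ)) := ⟨0, fun i => i.elim0, ∅, fun x => by simp⟩

theorem SA.univ : SA (Set.univ : Set (ι → ℝ)) :=
  ⟨0, fun i => i.elim0, Set.univ, fun x => by simp⟩

theorem SA.compl {S : Set (ι → ℝ)} (h : SA S) : SA Sᶜ := by
  obtain ⟨l, P, T, hT⟩ := h
  exact ⟨l, P, Tᶜ, fun x => by simp [hT]⟩

theorem SA.inter {S S' : Set (ι → ℝ)} (h : SA S) (h' : SA S') : SA (S ∩ S') := by
  obtain ⟨l, P, T, hT⟩ := h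
  obtain ⟨l', P', T', hT'⟩ := h'
  exact SA.of_signs (Sum.elim P P')
    {v : Fin l ⊕ Fin l' → SignType | v ∘ Sum.inl ∈ T ∧ v ∘ Sum.inr ∈ T'} fun x => by
      simp [hT, hT', Function.comp_def]

theorem SA.union {S S' : Set (ι → ℝ)} (h : SA S) (h' : SA S') : SA (S ∪ S') := by
  rw [← compl_compl (S ∪ S'), Set.compl_union]
  exact (h.compl.inter h'.compl).compl

theorem SA.diff {S S' : Set (ι → ℝ)} (h : SA S) (h' : SA S') : SA (S \ S') := by
  rw [Set.sdiff_eq_compl_inter]
  exact h'.compl.inter h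

theorem SA.congr {S S' : Set (ι → ℝ)} (h : SA S) (e : ∀ x, x ∈ S' ↔ x ∈ S) : SA S' :=
  (Set.ext e : S' = S) ▸ h

theorem SA.biInter_finset {α : Type*} (s : Finset α) {S : α → Set (ι → ℝ)}
    (h : ∀ a ∈ s, SA (S a)) : SA (⋂ a ∈ s, S a) := by
  classical
  induction s using Finset.induction_on with
  | empty => simpa using SA.univ
  | insert a s _ ih =>
    rw [Finset.set_biInter_insert]
    exact (h a (Finset.mem_insert_self a s)).inter
      (ih fun b hb => h b (Finset.mem_insert_of_mem hb))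

theorem SA.biUnion_finset {α : Type*} (s : Finset α) {S : α → Set (ι → ℝ)}
    (h : ∀ a ∈ s, SA (S a)) : SA (⋃ a ∈ s, S a) := by
  rw [← compl_compl (⋃ a ∈ s, S a), Set.compl_iUnion₂]
  exact (SA.biInter_finset s fun a ha => (h a ha).compl).compl

theorem SA.iInter {α : Type*} [Finite α] {S : α → Set (ι → ℝ)} (h : ∀ a, SA (S a)) :
    SA (⋂ a, S a) := by
  have := Fintype.ofFinite α
  simpa using SA.biInter_finset Finset.univ fun a _ => h a

theorem SA.iUnion {α : Type*} [Finite α] {S : α → Set (ι → ℝ)} (h : ∀ a, SA (S a)) :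
    SA (⋃ a, S a) := by
  have := Fintype.ofFinite α
  simpa using SA.biUnion_finset Finset.univ fun a _ => h a

theorem SA.sign_eq (p : MvPolynomial ι ℝ) (s : SignType) :
    SA {x : ι → ℝ | SignType.sign (eval x p) = s} :=
  SA.of_signs (fun _ : Fin 1 => p) {v | v 0 = s} fun x => by simp

theorem SA.eq_zero (p : MvPolynomial ι ℝ) : SA {x : ι → ℝ | eval x p = 0} :=
  (SA.sign_eq p 0).congr fun x => by simp

theorem SA.ne_zero (p : MvPolynomial ι ℝ) : SA {x : ι → ℝ | eval x p ≠ 0} :=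
  (SA.eq_zero p).compl.congr fun x => by simp

theorem SA.pos (p : MvPolynomial ι ℝ) : SA {x : ι → ℝ | 0 < eval x p} :=
  (SA.sign_eq p 1).congr fun x => by simp [sign_eq_one_iff]

theorem SA.nonneg (p : MvPolynomial ι ℝ) : SA {x : ι → ℝ | 0 ≤ eval x p} :=
  (SA.pos (-p)).compl.congr fun x => by simp

theorem SA.lt (p q : MvPolynomial ι ℝ) : SA {x : ι → ℝ | eval x p < eval x q} :=
  (SA.pos (q - p)).congr fun x => by simp

theorem SA.le (p q : MvPolynomial ι ℝ) : SA {x : ι → ℝ | eval x p ≤ eval x q} :=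
  (SA.nonneg (q - p)).congr fun x => by simp

theorem SA.eq (p q : MvPolynomial ι ℝ) : SA {x : ι → ℝ | eval x p = eval x q} :=
  (SA.eq_zero (p - q)).congr fun x => by simp [sub_eq_zero]

/-- Preimage by a polynomial map. -/
theorem SA.preimage {S : Set (κ → ℝ)} (h : SA S) (g : κ → MvPolynomial ι ℝ) :
    SA {x : ι → ℝ | (fun k => eval x (g k)) ∈ S} := by
  obtain ⟨l, P, T, hT⟩ := h
  refine ⟨l, fun i => bind₁ g (P i), T, fun x => ?_⟩
  have e : ∀ i, eval x (bind₁ g (P i)) = eval (fun k => eval x (g k)) (P i) := fun i => by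
    rw [eval, eval₂Hom_bind₁]; rfl
  simp only [Set.mem_ofPred_eq, hT, e]

/-- Preimage by a map of coordinates. -/
theorem SA.reindex {S : Set (κ → ℝ)} (h : SA S) (r : κ → ι) :
    SA {x : ι → ℝ | x ∘ r ∈ S} :=
  (h.preimage fun k => X (r k)).congr fun x => by simp [Function.comp_def]

/-- The image by a bijection of coordinates. -/
theorem SA.equiv {S : Set (κ → ℝ)} (h : SA S) (e : ι ≃ κ) :
    SA ((fun y : κ → ℝ => y ∘ e) '' S) := by
  refine (h.reindex e.symm).congr fun x => ⟨?_, fun hx => ⟨x ∘ e.symm, hx, ?_⟩⟩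
  · rintro ⟨y, hy, rfl⟩
    simpa [Function.comp_def] using hy
  · simp [Function.comp_def]

end

end Vale.Agent.P274.Full
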