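import Mathlib.Analysis.Polynomial.Basic
import Mathlib.Analysis.Calculus.LocalExtr.Rolle
import Mathlib.Analysis.Calculus.Deriv.Polynomial
import Mathlib.Analysis.Calculus.Deriv.MeanValue
import Mathlib.Topology.Order.IntermediateValue
import Mathlib.Data.Sign.Basic
import Mathlib.Topology.Algebra.Polynomial

/-!
Increasing bijections of the line matching the signs of two families of polynomials.
-/

namespace Vale.Agent.P274.Full

open Set Filter Topology Polynomial

noncomputable section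

/-- The sign of a polynomial at a point. -/
def sgnAt (p : ℝ[X]) (t : ℝ) : SignType := SignType.sign (p.eval t)

theorem sgnAt_eq_zero {p : ℝ[X]} {t : ℝ} : sgnAt p t = 0 ↔ p.eval t = 0 := sign_eq_zero_iff

theorem sgnAt_zero (t : ℝ) : sgnAt 0 t = 0 := by simp [sgnAt]

theorem sgn_atTop (p : ℝ[X]) :
    ∀ᶠ t in atTop, sgnAt p t = SignType.sign p.leadingCoeff := by
  rcases le_or_gt p.degree 0 with h | h
  · rw [eq_C_of_degree_le_zero h]
    exact Eventually.of_forall fun t => by simp [sgnAt]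
  · rcases lt_trichotomy p.leadingCoeff 0 with hl | hl | hl
    · filter_upwards [(p.tendsto_atBot_of_leadingCoeff_nonpos h hl.le).eventually
        (eventually_lt_atBot 0)] with t ht
      rw [sgnAt, sign_neg hl, sign_neg ht]
    · exact absurd (leadingCoeff_eq_zero.1 hl) (by rintro rfl; simp at h)
    · filter_upwards [(p.tendsto_atTop_of_leadingCoeff_nonneg h hl.le).eventually
        (eventually_gt_atTop 0)] with t ht
      rw [sgnAt, sign_pos hl, sign_pos ht]

theorem sgn_atBot (p : ℝ[X]) :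
    ∀ᶠ t in atBot, sgnAt p t = SignType.sign (p.leadingCoeff * (-1) ^ p.natDegree) := by
  have h := sgn_atTop (p.comp (-X))
  rw [leadingCoeff_comp (by simp)] at h
  filter_upwards [tendsto_neg_atBot_atTop.eventually h] with t ht
  simpa [sgnAt] using ht

theorem sgn_eq_of_no_root {p : ℝ[X]} {a b : ℝ} (hab : a ≤ b)
    (h : ∀ t ∈ Icc a b, p.eval t ≠ 0) : sgnAt p a = sgnAt p b := by
  have ha := h a (left_mem_Icc.2 hab)
  have hb := h b (right_mem_Icc.2 hab)
  rcases lt_or_gt_of_ne ha with ha | ha <;> rcases lt_or_gt_of_ne hb with hb | hb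
  · simp [sgnAt, sign_neg ha, sign_neg hb]
  · obtain ⟨t, ht, ht0⟩ := intermediate_value_Icc hab p.continuous.continuousOn
      ⟨ha.le, hb.le⟩
    exact absurd ht0 (h t ht)
  · obtain ⟨t, ht, ht0⟩ := intermediate_value_Icc' hab p.continuous.continuousOn
      ⟨hb.le, ha.le⟩
    exact absurd ht0 (h t ht)
  · simp [sgnAt, sign_pos ha, sign_pos hb]

theorem eq_of_roots {q : ℝ[X]} {a b u v : ℝ}
    (hd : ∀ t ∈ Ioo a b, (derivative q).eval t ≠ 0) (hu : u ∈ Icc a b) (hv : v ∈ Icc a b)
    (h0 : q.eval u = 0) (h1 : q.eval v = 0) : u = v := by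
  wlog huv : u ≤ v generalizing u v
  · exact (this hv hu h1 h0 (le_of_not_ge huv)).symm
  by_contra hne
  obtain ⟨c, hc, hc0⟩ := exists_hasDerivAt_eq_zero (lt_of_le_of_ne huv hne)
    q.continuous.continuousOn (h0.trans h1.symm) fun x _ => q.hasDerivAt x
  exact hd c ⟨hu.1.trans_lt hc.1, hc.2.trans_le hv.2⟩ hc0

/-- A root in a gap of the derivative is a change of sign. -/
theorem ends_of_root {q : ℝ[X]} {a b c : ℝ}
    (hd : ∀ t ∈ Ioo a b, (derivative q).eval t ≠ 0) (hc : c ∈ Ioo a b) (h0 : q.eval c = 0) :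
    q.eval a ≠ 0 ∧ q.eval b ≠ 0 ∧ sgnAt q a ≠ sgnAt q b := by
  have hab : a < b := hc.1.trans hc.2
  have ha : q.eval a ≠ 0 := fun h =>
    hc.1.ne (eq_of_roots hd (left_mem_Icc.2 hab.le) (Ioo_subset_Icc_self hc) h h0)
  have hb : q.eval b ≠ 0 := fun h =>
    hc.2.ne (eq_of_roots hd (Ioo_subset_Icc_self hc) (right_mem_Icc.2 hab.le) h0 h)
  refine ⟨ha, hb, ?_⟩
  have hsgn : ∀ t ∈ Ioo a b, sgnAt (derivative q) t = sgnAt (derivative q) c := by
    intro t ht
    rcases le_total t c with h | h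
    · exact sgn_eq_of_no_root h fun s hs => hd s ⟨ht.1.trans_le hs.1, hs.2.trans_lt hc.2⟩
    · exact (sgn_eq_of_no_root h fun s hs => hd s ⟨hc.1.trans_le hs.1, hs.2.trans_lt ht.2⟩).symm
  rcases lt_or_gt_of_ne (hd c hc) with hs | hs
  · have hanti : StrictAntiOn (fun t => q.eval t) (Icc a b) := by
      refine strictAntiOn_of_deriv_neg (convex_Icc a b) q.continuous.continuousOn fun t ht => ?_
      rw [interior_Icc] at ht
      rw [Polynomial.deriv]
      have := hsgn t ht
      rwa [show sgnAt (derivative q) c = -1 from sign_neg hs, sgnAt, sign_eq_neg_one_iff] at this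
    have h1 := hanti (left_mem_Icc.2 hab.le) (Ioo_subset_Icc_self hc) hc.1
    have h2 := hanti (Ioo_subset_Icc_self hc) (right_mem_Icc.2 hab.le) hc.2
    simp only [h0] at h1 h2
    simp [sgnAt, sign_pos h1, sign_neg h2]
  · have hmono : StrictMonoOn (fun t => q.eval t) (Icc a b) := by
      refine strictMonoOn_of_deriv_pos (convex_Icc a b) q.continuous.continuousOn fun t ht => ?_
      rw [interior_Icc] at ht
      rw [Polynomial.deriv]
      have := hsgn t ht
      rwa [show sgnAt (derivative q) c = 1 from sign_pos hs, sgnAt, sign_eq_one_iff] at this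
    have h1 := hmono (left_mem_Icc.2 hab.le) (Ioo_subset_Icc_self hc) hc.1
    have h2 := hmono (Ioo_subset_Icc_self hc) (right_mem_Icc.2 hab.le) hc.2
    simp only [h0] at h1 h2
    simp [sgnAt, sign_neg h1, sign_pos h2]

/-- An increasing bijection moving `c` to `d` inside `(a, b)` and fixing everything outside. -/
theorem exists_bump {a b c d : ℝ} (hc : c ∈ Ioo a b) (hd : d ∈ Ioo a b) :
    ∃ η : ℝ ≃o ℝ, η c = d ∧ ∀ t, t ≤ a ∨ b ≤ t → η t = t := by
  obtain ⟨hac, hcb⟩ := hc
  obtain ⟨had, hdb⟩ := hd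
  set l₁ : ℝ → ℝ := fun t => a + (t - a) * ((d - a) / (c - a)) with hl₁
  set l₂ : ℝ → ℝ := fun t => d + (t - c) * ((b - d) / (b - c)) with hl₂
  have hca : c - a ≠ 0 := by linarith
  have hbc : b - c ≠ 0 := by linarith
  have m₁ : StrictMono l₁ := fun s t hst => by
    have : 0 < (d - a) / (c - a) := div_pos (by linarith) (by linarith)
    simp only [hl₁]; nlinarith
  have m₂ : StrictMono l₂ := fun s t hst => by
    have : 0 < (b - d) / (b - c) := div_pos (by linarith) (by linarith)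
    simp only [hl₂]; nlinarith
  have key : ∀ f : ℝ → ℝ, StrictMono f → Continuous f → f c = d →
      (∀ t, t ≤ a ∨ b ≤ t → f t = t) → ∃ η : ℝ ≃o ℝ, η c = d ∧ ∀ t, t ≤ a ∨ b ≤ t → η t = t := by
    intro f hf hfc h1 h2
    have hsur : Function.Surjective f := hfc.surjective
      (tendsto_id.congr' (by filter_upwards [eventually_ge_atTop b] with t ht
                             exact (h2 t (Or.inr ht)).symm))
      (tendsto_id.congr' (by filter_upwards [eventually_le_atBot a] with t ht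
                             exact (h2 t (Or.inl ht)).symm))
    exact ⟨hf.orderIsoOfSurjective f hsur, h1, h2⟩
  have e₁ : l₁ c = d := by simp only [hl₁]; field_simp; ring
  have e₂ : l₂ c = d := by simp [hl₂]
  rcases le_total c d with hcd | hcd
  · refine key (fun t => max t (min (l₁ t) (l₂ t))) (fun s t h => max_lt_max h (min_lt_min (m₁ h) (m₂ h))) (by fun_prop)
      (by simp [e₁, e₂, hcd]) fun t ht => max_eq_left ?_
    rcases ht with ht | ht
    · refine (min_le_left _ _).trans ?_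
      have : 1 ≤ (d - a) / (c - a) := (one_le_div (by linarith)).2 (by linarith)
      simp only [hl₁]; nlinarith
    · refine (min_le_right _ _).trans ?_
      have h3 : (b - d) / (b - c) ≤ 1 := (div_le_one (by linarith)).2 (by linarith)
      have h4 : (b - c) * ((b - d) / (b - c)) = b - d := by field_simp
      simp only [hl₂]; nlinarith
  · refine key (fun t => min t (max (l₁ t) (l₂ t))) (fun s t h => min_lt_min h (max_lt_max (m₁ h) (m₂ h))) (by fun_prop)
      (by simp [e₁, e₂, hcd]) fun t ht => min_eq_left ?_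
    rcases ht with ht | ht
    · refine le_trans ?_ (le_max_left _ _)
      have : (d - a) / (c - a) ≤ 1 := (div_le_one (by linarith)).2 (by linarith)
      simp only [hl₁]; nlinarith
    · refine le_trans ?_ (le_max_right _ _)
      have h3 : 1 ≤ (b - d) / (b - c) := (one_le_div (by linarith)).2 (by linarith)
      have h4 : (b - c) * ((b - d) / (b - c)) = b - d := by field_simp
      simp only [hl₂]; nlinarith

theorem eq_zero_of_match {p q : ℝ[X]} {φ : ℝ ≃o ℝ} (h : ∀ t, sgnAt p t = sgnAt q (φ t))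
    (hp : p = 0) : q = 0 := by
  subst hp
  refine Polynomial.eq_zero_of_infinite_isRoot q (Set.infinite_univ.mono fun t _ => ?_)
  have := h (φ.symm t)
  rw [sgnAt_zero, φ.apply_symm_apply] at this
  exact sgnAt_eq_zero.1 this.symm

/-- Signs matched for a family containing the derivative of `p` can be matched for `p` as well,
if they agree at the roots of the family and at infinity. -/
theorem exists_extend {J : Type*} [Finite J] (f g : J → ℝ[X]) (φ : ℝ ≃o ℝ)
    (hφ : ∀ j t, sgnAt (f j) t = sgnAt (g j) (φ t)) (p q : ℝ[X]) (j₀ : J)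
    (hf : f j₀ = derivative p) (hg : g j₀ = derivative q) (hdeg : p.natDegree = q.natDegree)
    (hlead : SignType.sign p.leadingCoeff = SignType.sign q.leadingCoeff)
    (hroot : ∀ j t, f j ≠ 0 → (f j).eval t = 0 → sgnAt p t = sgnAt q (φ t)) :
    ∃ ψ : ℝ ≃o ℝ, (∀ j t, sgnAt (f j) t = sgnAt (g j) (ψ t)) ∧
      ∀ t, sgnAt p t = sgnAt q (ψ t) := by
  classical
  have := Fintype.ofFinite J
  by_cases hj₀ : f j₀ = 0
  · refine ⟨φ, hφ, fun t => ?_⟩
    have hg0 := eq_zero_of_match (hφ j₀) hj₀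
    rw [hf] at hj₀
    rw [hg] at hg0
    have h1 := derivative_eq_zero.1 hj₀
    have h2 := derivative_eq_zero.1 hg0
    rw [eq_C_of_natDegree_eq_zero h1, eq_C_of_natDegree_eq_zero h2]
    simp only [sgnAt, eval_C]
    simpa [leadingCoeff, h1, h2] using hlead
  have hp0 : p ≠ 0 := by rintro rfl; exact hj₀ (by simpa using hf)
  set sm := SignType.sign (p.leadingCoeff * (-1) ^ p.natDegree) with hsm
  set sp := SignType.sign p.leadingCoeff with hsp
  have hsm0 : sm ≠ 0 := by simp [hsm, hp0]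
  have hsp0 : sp ≠ 0 := by simp [hsp, hp0]
  have hsmq : sm = SignType.sign (q.leadingCoeff * (-1) ^ q.natDegree) := by
    rw [hsm, sign_mul, sign_mul, ← hlead, hdeg]
  -- far away nothing happens
  obtain ⟨L, hL⟩ : ∃ L, ∀ t ≤ L,
      (∀ j, f j ≠ 0 → (f j).eval t ≠ 0) ∧ sgnAt p t = sm ∧ sgnAt q (φ t) = sm := by
    refine eventually_atBot.1 (Eventually.and ?_ ((sgn_atBot p).and ?_))
    · refine eventually_all.2 fun j => ?_
      by_cases h : f j = 0
      · exact Eventually.of_forall fun t hne => absurd h hne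
      · filter_upwards [sgn_atBot (f j)] with t ht _
        intro h0
        rw [sgnAt, h0, sign_zero] at ht
        exact h (leadingCoeff_eq_zero.1 (sign_eq_zero_iff.1 (by simpa [sign_mul] using ht.symm)))
    · rw [hsmq]; exact φ.tendsto_atBot.eventually (sgn_atBot q)
  obtain ⟨R₀, hR₀⟩ : ∃ R, ∀ t ≥ R,
      (∀ j, f j ≠ 0 → (f j).eval t ≠ 0) ∧ sgnAt p t = sp ∧ sgnAt q (φ t) = sp := by
    refine eventually_atTop.1 (Eventually.and ?_ ((sgn_atTop p).and ?_))
    · refine eventually_all.2 fun j => ?_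
      by_cases h : f j = 0
      · exact Eventually.of_forall fun t hne => absurd h hne
      · filter_upwards [sgn_atTop (f j)] with t ht _
        intro h0
        rw [sgnAt, h0, sign_zero] at ht
        exact h (leadingCoeff_eq_zero.1 (sign_eq_zero_iff.1 (by simpa [sign_mul] using ht.symm)))
    · rw [hlead]; exact φ.tendsto_atTop.eventually (sgn_atTop q)
  set R := max R₀ (L + 1) with hRdef
  have hR : ∀ t ≥ R, (∀ j, f j ≠ 0 → (f j).eval t ≠ 0) ∧ sgnAt p t = sp ∧ sgnAt q (φ t) = sp :=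
    fun t ht => hR₀ t ((le_max_left _ _).trans ht)
  have hLR : L < R := (lt_add_one L).trans_le (le_max_right _ _)
  set B : Finset ℝ := insert L (insert R (Finset.univ.biUnion fun j => (f j).roots.toFinset))
    with hBdef
  have hLB : L ∈ B := by simp [hBdef]
  have hRB : R ∈ B := by simp [hBdef]
  have hB : ∀ j t, f j ≠ 0 → (f j).eval t = 0 → t ∈ B := fun j t hne h0 => by
    simp only [hBdef, Finset.mem_insert, Finset.mem_biUnion, Multiset.mem_toFinset, mem_roots',
      IsRoot.def]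
    exact Or.inr (Or.inr ⟨j, Finset.mem_univ j, hne, h0⟩)
  have hBs : ∀ b ∈ B, sgnAt p b = sgnAt q (φ b) := fun b hb => by
    simp only [hBdef, Finset.mem_insert, Finset.mem_biUnion, Multiset.mem_toFinset, mem_roots',
      IsRoot.def] at hb
    rcases hb with rfl | rfl | ⟨j, -, hne, h0⟩
    · rw [(hL b le_rfl).2.1, (hL b le_rfl).2.2]
    · rw [(hR _ le_rfl).2.1, (hR _ le_rfl).2.2]
    · exact hroot j b hne h0
  -- neighbours in `B`
  have gap : ∀ t, L < t → t < R → t ∉ B →
      ∃ a ∈ B, ∃ b ∈ B, t ∈ Ioo a b ∧ ∀ u ∈ B, u ≤ a ∨ b ≤ u := by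
    intro t h1 h2 ht
    have n1 : (B.filter fun u => u < t).Nonempty := ⟨L, Finset.mem_filter.2 ⟨hLB, h1⟩⟩
    have n2 : (B.filter fun u => t < u).Nonempty := ⟨R, Finset.mem_filter.2 ⟨hRB, h2⟩⟩
    obtain ⟨ha, hat⟩ := Finset.mem_filter.1 (Finset.max'_mem _ n1)
    obtain ⟨hb, htb⟩ := Finset.mem_filter.1 (Finset.min'_mem _ n2)
    refine ⟨_, ha, _, hb, ⟨hat, htb⟩, fun u hu => ?_⟩
    rcases lt_trichotomy u t with h | h | h
    · exact Or.inl (Finset.le_max' _ _ (Finset.mem_filter.2 ⟨hu, h⟩))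
    · exact absurd (h ▸ hu) ht
    · exact Or.inr (Finset.min'_le _ _ (Finset.mem_filter.2 ⟨hu, h⟩))
  have free : ∀ j a b, (∀ u ∈ B, u ≤ a ∨ b ≤ u) → f j ≠ 0 →
      ∀ t ∈ Ioo a b, (f j).eval t ≠ 0 := fun j a b hab hne t ht h0 => by
    rcases hab t (hB j t hne h0) with h | h
    · exact absurd ht.1 (not_lt.2 h)
    · exact absurd ht.2 (not_lt.2 h)
  have free' : ∀ j a b, (∀ u ∈ B, u ≤ a ∨ b ≤ u) → f j ≠ 0 →
      ∀ t ∈ Ioo (φ a) (φ b), (g j).eval t ≠ 0 := fun j a b hab hne t ht h0 => by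
    refine free j a b hab hne (φ.symm t) ⟨?_, ?_⟩ ?_
    · rw [← φ.lt_iff_lt, φ.apply_symm_apply]; exact ht.1
    · rw [← φ.lt_iff_lt, φ.apply_symm_apply]; exact ht.2
    · rw [← sgnAt_eq_zero, hφ, φ.apply_symm_apply]; exact sgnAt_eq_zero.2 h0
  have dfree : ∀ a b, (∀ u ∈ B, u ≤ a ∨ b ≤ u) → ∀ t ∈ Ioo a b, (derivative p).eval t ≠ 0 :=
    fun a b hab t ht => hf ▸ free j₀ a b hab hj₀ t ht
  have dfree' : ∀ a b, (∀ u ∈ B, u ≤ a ∨ b ≤ u) →
      ∀ t ∈ Ioo (φ a) (φ b), (derivative q).eval t ≠ 0 :=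
    fun a b hab t ht => hg ▸ free' j₀ a b hab hj₀ t ht
  have outB : ∀ t, p.eval t = 0 → L < t ∧ t < R := fun t h0 => by
    constructor <;> by_contra hlt <;> rw [not_lt] at hlt
    · exact hsm0 ((hL t hlt).2.1.symm.trans (sgnAt_eq_zero.2 h0))
    · exact hsp0 ((hR t hlt).2.1.symm.trans (sgnAt_eq_zero.2 h0))
  -- move the roots of `p` to roots of `q`, one gap at a time
  obtain ⟨ψ, hψf, hψB, hψ0⟩ : ∃ ψ : ℝ ≃o ℝ, (∀ j t, sgnAt (f j) t = sgnAt (g j) (ψ t)) ∧
      (∀ b ∈ B, ψ b = φ b) ∧ ∀ c ∈ p.roots.toFinset, q.eval (ψ c) = 0 := by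
    suffices H : ∀ S : Finset ℝ, S ⊆ p.roots.toFinset → ∃ ψ : ℝ ≃o ℝ,
        (∀ j t, sgnAt (f j) t = sgnAt (g j) (ψ t)) ∧
        (∀ b ∈ B, ψ b = φ b) ∧ ∀ c ∈ S, q.eval (ψ c) = 0 from H _ subset_rfl
    intro S
    induction S using Finset.induction_on with
    | empty => exact fun _ => ⟨φ, hφ, fun b _ => rfl, by simp⟩
    | insert c S hcS ih =>
      intro hsub
      obtain ⟨ψ, h1, h2, h3⟩ := ih ((Finset.subset_insert _ _).trans hsub)
      have hc0 : p.eval c = 0 := by
        have := hsub (Finset.mem_insert_self c S)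
        simp only [Multiset.mem_toFinset, mem_roots', IsRoot.def] at this
        exact this.2
      by_cases hcB : c ∈ B
      · refine ⟨ψ, h1, h2, fun u hu => ?_⟩
        rcases Finset.mem_insert.1 hu with rfl | hu
        · rw [h2 _ hcB, ← sgnAt_eq_zero, ← hBs _ hcB]; exact sgnAt_eq_zero.2 hc0
        · exact h3 u hu
      obtain ⟨a, ha, b, hb, hcab, hab⟩ := gap c (outB c hc0).1 (outB c hc0).2 hcB
      obtain ⟨e1, e2, e3⟩ := ends_of_root (dfree a b hab) hcab hc0
      obtain ⟨d, hd, hd0⟩ : ∃ d ∈ Ioo (φ a) (φ b), q.eval d = 0 := by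
        by_contra hno
        push Not at hno
        apply e3
        rw [hBs a ha, hBs b hb]
        refine sgn_eq_of_no_root (φ.monotone (hcab.1.trans hcab.2).le) fun t ht => ?_
        rcases eq_or_lt_of_le ht.1 with h | h
        · subst h
          intro h0; exact e1 (sgnAt_eq_zero.1 ((hBs a ha).trans (sgnAt_eq_zero.2 h0)))
        rcases eq_or_lt_of_le ht.2 with h' | h'
        · subst h'
          intro h0; exact e2 (sgnAt_eq_zero.1 ((hBs b hb).trans (sgnAt_eq_zero.2 h0)))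
        exact hno t ⟨h, h'⟩
      obtain ⟨η, hη, hfix⟩ := exists_bump (c := ψ c) (d := d)
        (⟨h2 a ha ▸ ψ.strictMono hcab.1, h2 b hb ▸ ψ.strictMono hcab.2⟩ :
          ψ c ∈ Ioo (φ a) (φ b)) hd
      refine ⟨ψ.trans η, fun j t => ?_, fun u hu => ?_, fun u hu => ?_⟩
      · rw [h1, OrderIso.trans_apply]
        by_cases hout : ψ t ≤ φ a ∨ φ b ≤ ψ t
        · rw [hfix _ hout]
        push Not at hout
        by_cases hj : f j = 0
        · simp [eq_zero_of_match (hφ j) hj, sgnAt_zero]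
        have hin : η (ψ t) ∈ Ioo (φ a) (φ b) := by
          have e := η.strictMono hout.1
          have e' := η.strictMono hout.2
          rw [hfix _ (Or.inl le_rfl)] at e
          rw [hfix _ (Or.inr le_rfl)] at e'
          exact ⟨e, e'⟩
        rcases le_total (ψ t) (η (ψ t)) with h | h
        · exact sgn_eq_of_no_root h fun s hs =>
            free' j a b hab hj s ⟨hout.1.trans_le hs.1, hs.2.trans_lt hin.2⟩
        · exact (sgn_eq_of_no_root h fun s hs =>
            free' j a b hab hj s ⟨hin.1.trans_le hs.1, hs.2.trans_lt hout.2⟩).symm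
      · rw [OrderIso.trans_apply, h2 u hu, hfix]
        exact (hab u hu).imp (fun h => φ.monotone h) fun h => φ.monotone h
      · rw [OrderIso.trans_apply]
        rcases Finset.mem_insert.1 hu with rfl | hu
        · rw [hη]; exact hd0
        · rw [hfix]
          · exact h3 u hu
          · by_contra hin
            push Not at hin
            have hu0 : p.eval u = 0 := by
              have := hsub (Finset.mem_insert_of_mem hu)
              simp only [Multiset.mem_toFinset, mem_roots', IsRoot.def] at this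
              exact this.2
            have hu' : u ∈ Ioo a b := by
              rw [← h2 a ha, ← h2 b hb] at hin
              exact ⟨ψ.lt_iff_lt.1 hin.1, ψ.lt_iff_lt.1 hin.2⟩
            exact hcS (eq_of_roots (dfree a b hab) (Ioo_subset_Icc_self hu')
              (Ioo_subset_Icc_self hcab) hu0 hc0 ▸ hu)
  have hfw : ∀ c, p.eval c = 0 → q.eval (ψ c) = 0 := fun c hc =>
    hψ0 c (by simp only [Multiset.mem_toFinset, mem_roots', IsRoot.def]; exact ⟨hp0, hc⟩)
  have low : ∀ t, t ≤ L → sgnAt q (ψ t) = sm := fun t ht => by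
    have h : φ.symm (ψ t) ≤ L := by
      rw [← φ.le_iff_le, φ.apply_symm_apply, ← hψB L hLB]; exact ψ.monotone ht
    simpa using (hL _ h).2.2
  have high : ∀ t, R ≤ t → sgnAt q (ψ t) = sp := fun t ht => by
    have h : R ≤ φ.symm (ψ t) := by
      rw [← φ.le_iff_le, φ.apply_symm_apply, ← hψB R hRB]; exact ψ.monotone ht
    simpa using (hR _ h).2.2
  have hbw : ∀ t, q.eval (ψ t) = 0 → p.eval t = 0 := by
    intro t h0
    by_cases htB : t ∈ B
    · rw [hψB t htB] at h0
      rw [← sgnAt_eq_zero, hBs t htB]; exact sgnAt_eq_zero.2 h0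
    have h1 : L < t := by
      by_contra h; exact hsm0 ((low t (not_lt.1 h)).symm.trans (sgnAt_eq_zero.2 h0))
    have h2 : t < R := by
      by_contra h; exact hsp0 ((high t (not_lt.1 h)).symm.trans (sgnAt_eq_zero.2 h0))
    obtain ⟨a, ha, b, hb, htab, hab⟩ := gap t h1 h2 htB
    have hin : ψ t ∈ Ioo (φ a) (φ b) :=
      ⟨hψB a ha ▸ ψ.strictMono htab.1, hψB b hb ▸ ψ.strictMono htab.2⟩
    obtain ⟨e1, e2, e3⟩ := ends_of_root (dfree' a b hab) hin h0
    rw [← hBs a ha, ← hBs b hb] at e3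
    obtain ⟨c, hc, hc0⟩ : ∃ c ∈ Icc a b, p.eval c = 0 := by
      by_contra hno
      push Not at hno
      exact e3 (sgn_eq_of_no_root (htab.1.trans htab.2).le hno)
    have hcin : ψ c ∈ Icc (φ a) (φ b) :=
      ⟨hψB a ha ▸ ψ.monotone hc.1, hψB b hb ▸ ψ.monotone hc.2⟩
    exact ψ.injective (eq_of_roots (dfree' a b hab) hcin (Ioo_subset_Icc_self hin)
      (hfw c hc0) h0) ▸ hc0
  refine ⟨ψ, hψf, fun t => ?_⟩
  by_cases ht0 : p.eval t = 0
  · rw [sgnAt_eq_zero.2 ht0, sgnAt_eq_zero.2 (hfw t ht0)]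
  by_cases htL : t ≤ L
  · rw [(hL t htL).2.1, low t htL]
  by_cases htR : R ≤ t
  · rw [(hR t htR).2.1, high t htR]
  by_cases htB : t ∈ B
  · rw [hψB t htB]; exact hBs t htB
  obtain ⟨a, ha, b, hb, htab, hab⟩ := gap t (not_le.1 htL) (not_le.1 htR) htB
  have hq : ∀ u v, (∀ s ∈ Icc u v, p.eval s ≠ 0) → ∀ s ∈ Icc (ψ u) (ψ v), q.eval s ≠ 0 := by
    intro u v h s hs h0
    refine h (ψ.symm s) ⟨?_, ?_⟩ (hbw _ (by rw [ψ.apply_symm_apply]; exact h0))
    · rw [← ψ.le_iff_le, ψ.apply_symm_apply]; exact hs.1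
    · rw [← ψ.le_iff_le, ψ.apply_symm_apply]; exact hs.2
  by_cases hl : ∀ s ∈ Icc a t, p.eval s ≠ 0
  · rw [← sgn_eq_of_no_root htab.1.le hl,
      ← sgn_eq_of_no_root (ψ.monotone htab.1.le) (hq a t hl), hψB a ha]
    exact hBs a ha
  push Not at hl
  obtain ⟨c, hc, hc0⟩ := hl
  have hr : ∀ s ∈ Icc t b, p.eval s ≠ 0 := fun s hs hs0 => by
    have := eq_of_roots (dfree a b hab) (⟨hc.1, hc.2.trans htab.2.le⟩ : c ∈ Icc a b)
      (⟨htab.1.le.trans hs.1, hs.2⟩ : s ∈ Icc a b) hc0 hs0
    exact ht0 ((le_antisymm (this ▸ hc.2) hs.1 : s = t) ▸ hs0)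
  rw [sgn_eq_of_no_root htab.2.le hr,
    sgn_eq_of_no_root (ψ.monotone htab.2.le) (hq t b hr), hψB b hb]
  exact hBs b hb

end

end Vale.Agent.P274.Full
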