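import Vale.Agent.P274.Full.SA.Basic
import Vale.Agent.P274.Full.SA.Roots
import Vale.Agent.P274.Full.Stmts
import Mathlib.Algebra.MvPolynomial.Equiv
import Mathlib.Algebra.Polynomial.EraseLead
import Mathlib.Data.Multiset.DershowitzManna

/-!
Projections of semialgebraic sets are semialgebraic.
-/

namespace Vale.Agent.P274.Full

open Set Polynomial

noncomputable section

/-- Pseudo-division by a polynomial of positive degree. -/
theorem exists_prem {A : Type*} [CommRing A] (G : A[X]) (hG : 0 < G.natDegree) (P : A[X]) :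
    ∃ (k : ℕ) (Q R : A[X]), C (G.leadingCoeff ^ (2 * k)) * P = Q * G + R ∧
      R.natDegree < G.natDegree := by
  suffices H : ∀ n, ∀ P : A[X], P.natDegree ≤ n → ∃ (k : ℕ) (Q R : A[X]),
      C (G.leadingCoeff ^ (2 * k)) * P = Q * G + R ∧ R.natDegree < G.natDegree from H _ P le_rfl
  intro n
  induction n using Nat.strong_induction_on with
  | _ n ih =>
    intro P hP
    rcases lt_or_ge P.natDegree G.natDegree with h | h
    · exact ⟨0, 0, P, by simp, h⟩
    set c := G.leadingCoeff
    set S := C (c * P.leadingCoeff) * X ^ (P.natDegree - G.natDegree)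
    set P₁ := C (c * c) * P - S * G with hP₁
    have hlt : P₁.natDegree < P.natDegree := by
      have hle : P₁.natDegree ≤ P.natDegree := by
        refine (natDegree_sub_le _ _).trans (max_le (natDegree_C_mul_le _ _) ?_)
        refine natDegree_mul_le.trans ?_
        have := natDegree_C_mul_X_pow_le (c * P.leadingCoeff) (P.natDegree - G.natDegree)
        simp only [S]; omega
      rcases lt_or_eq_of_le hle with h' | h'
      · exact h'
      · exfalso
        have h0 : P₁.coeff P.natDegree = 0 := by
          simp only [hP₁, S, coeff_sub, coeff_C_mul, mul_assoc, coeff_X_pow_mul',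
            if_pos (Nat.sub_le _ _), show P.natDegree - (P.natDegree - G.natDegree) = G.natDegree
            by omega, coeff_natDegree]
          ring
        rw [← h', coeff_natDegree, leadingCoeff_eq_zero] at h0
        rw [h0, natDegree_zero] at h'
        omega
    obtain ⟨k, Q, R, e, hR⟩ := ih P₁.natDegree (hlt.trans_le hP) P₁ le_rfl
    refine ⟨k + 1, Q + C (c ^ (2 * k)) * S, R, ?_, hR⟩
    have e' : C (c ^ (2 * (k + 1))) = C (c ^ (2 * k)) * C (c * c) := by
      rw [← map_mul]; congr 1; ring
    rw [e']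
    simp only [hP₁] at e
    linear_combination e

variable {ι : Type} [Fintype ι]

/-- Substitution of the parameters. -/
def spec (x : ι → ℝ) (P : (MvPolynomial ι ℝ)[X]) : ℝ[X] := P.map (MvPolynomial.eval x)

/-- The signs of a family at two parameters match under an increasing bijection. -/
def Matches (F : Multiset (MvPolynomial ι ℝ)[X]) (x y : ι → ℝ) : Prop :=
  ∃ φ : ℝ ≃o ℝ, ∀ P ∈ F, ∀ t, sgnAt (spec x P) t = sgnAt (spec y P) (φ t)

omit [Fintype ι] in
/-- The signs of finitely many parameter polynomials determine the sign pattern on the line. -/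
theorem exists_table (F : Multiset (MvPolynomial ι ℝ)[X]) :
    ∃ Q : Finset (MvPolynomial ι ℝ), ∀ x y : ι → ℝ,
      (∀ c ∈ Q, SignType.sign (MvPolynomial.eval x c) = SignType.sign (MvPolynomial.eval y c)) →
      Matches F x y := by
  classical
  induction F using (InvImage.wf (fun F : Multiset (MvPolynomial ι ℝ)[X] => F.map natDegree)
    Multiset.wellFounded_isDershowitzMannaLT).induction with
  | h F ih =>
  by_cases h0 : ∀ P ∈ F, P.natDegree = 0
  · refine ⟨(F.map fun P => P.coeff 0).toFinset, fun x y h => ⟨OrderIso.refl ℝ, fun P hP t => ?_⟩⟩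
    rw [spec, spec, eq_C_of_natDegree_eq_zero (h0 P hP)]
    simp only [map_C, sgnAt, eval_C]
    exact h _ (Multiset.mem_toFinset.2 (Multiset.mem_map_of_mem _ hP))
  push Not at h0
  obtain ⟨P₀, hP₀, hP₀'⟩ := h0
  obtain ⟨P, hP, hmax⟩ :=
    F.toFinset.exists_max_image natDegree ⟨P₀, Multiset.mem_toFinset.2 hP₀⟩
  rw [Multiset.mem_toFinset] at hP
  have hmax' : ∀ G ∈ F, G.natDegree ≤ P.natDegree := fun G hG =>
    hmax G (Multiset.mem_toFinset.2 hG)
  have hd : 0 < P.natDegree := by have := hmax' P₀ hP₀; omega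
  -- a vanishing leading coefficient
  have h1 : ∀ G : (MvPolynomial ι ℝ)[X], ∃ Q : Finset (MvPolynomial ι ℝ),
      G ∈ F → 0 < G.natDegree → ∀ x y : ι → ℝ, (∀ c ∈ Q,
        SignType.sign (MvPolynomial.eval x c) = SignType.sign (MvPolynomial.eval y c)) →
        Matches (G.eraseLead ::ₘ F.erase G) x y := by
    intro G
    by_cases hG : G ∈ F ∧ 0 < G.natDegree
    · obtain ⟨Q, hQ⟩ := ih (G.eraseLead ::ₘ F.erase G) (by
        refine ⟨(F.erase G).map natDegree, {G.eraseLead.natDegree}, {G.natDegree},
          Multiset.singleton_ne_zero _, ?_, ?_, ?_⟩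
        · simp only [Multiset.map_cons]
          rw [add_comm, Multiset.singleton_add]
        · conv_lhs => rw [← Multiset.cons_erase hG.1]
          simp only [Multiset.map_cons]
          rw [add_comm, Multiset.singleton_add]
        · intro y hy
          rw [Multiset.mem_singleton] at hy
          subst hy
          exact ⟨_, Multiset.mem_singleton_self _,
            (eraseLead_natDegree_le G).trans_lt (by omega)⟩)
      exact ⟨Q, fun _ _ => hQ⟩
    · exact ⟨∅, fun a b => absurd ⟨a, b⟩ hG⟩
  choose Q₁ hQ₁ using h1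
  -- remainders
  have h2 : ∀ G : (MvPolynomial ι ℝ)[X], ∃ (k : ℕ) (A R : (MvPolynomial ι ℝ)[X]),
      0 < G.natDegree → C (G.leadingCoeff ^ (2 * k)) * P = A * G + R ∧
        R.natDegree < G.natDegree := by
    intro G
    by_cases hG : 0 < G.natDegree
    · obtain ⟨k, A, R, h⟩ := exists_prem G hG P
      exact ⟨k, A, R, fun _ => h⟩
    · exact ⟨0, 0, 0, fun h => absurd h hG⟩
  choose kG AG RG hRG using h2
  set E := derivative P ::ₘ F.erase P with hE
  set F₂ := E + (E.filter fun G => 0 < G.natDegree).map RG with hF₂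
  have hdP : (derivative P).natDegree < P.natDegree := natDegree_derivative_lt hd.ne'
  have hEle : ∀ G ∈ E, G.natDegree ≤ P.natDegree := fun G hG => by
    rw [hE, Multiset.mem_cons] at hG
    rcases hG with rfl | hG
    · exact hdP.le
    · exact hmax' G (Multiset.mem_of_mem_erase hG)
  obtain ⟨Q₂, hQ₂⟩ := ih F₂ (by
    refine ⟨(F.erase P).map natDegree, (derivative P).natDegree ::ₘ
      ((E.filter fun G => 0 < G.natDegree).map RG).map natDegree, {P.natDegree},
      Multiset.singleton_ne_zero _, ?_, ?_, ?_⟩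
    · simp only [hF₂, hE, Multiset.map_add, Multiset.map_cons, Multiset.cons_add, Multiset.add_cons]
    · conv_lhs => rw [← Multiset.cons_erase hP]
      simp only [Multiset.map_cons]
      rw [add_comm, Multiset.singleton_add]
    · intro y hy
      refine ⟨_, Multiset.mem_singleton_self _, ?_⟩
      rw [Multiset.mem_cons, Multiset.map_map, Multiset.mem_map] at hy
      rcases hy with rfl | ⟨G, hG, rfl⟩
      · exact hdP
      · obtain ⟨hGE, hG0⟩ := Multiset.mem_filter.1 hG
        exact (hRG G hG0).2.trans_le (hEle G hGE))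
  refine ⟨Q₂ ∪ (F.map leadingCoeff).toFinset ∪ F.toFinset.biUnion Q₁, fun x y hxy => ?_⟩
  have hlc : ∀ G ∈ F, SignType.sign (MvPolynomial.eval x G.leadingCoeff)
      = SignType.sign (MvPolynomial.eval y G.leadingCoeff) := fun G hG => hxy _ (by
    simp only [Finset.mem_union, Multiset.mem_toFinset]
    exact Or.inl (Or.inr (Multiset.mem_map_of_mem _ hG)))
  by_cases hz : ∃ G ∈ F, 0 < G.natDegree ∧ MvPolynomial.eval x G.leadingCoeff = 0
  · obtain ⟨G, hG, hG0, hx0⟩ := hz
    have hy0 : MvPolynomial.eval y G.leadingCoeff = 0 := by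
      have := hlc G hG
      rw [hx0, sign_zero] at this
      exact sign_eq_zero_iff.1 this.symm
    obtain ⟨φ, hφ⟩ := hQ₁ G hG hG0 x y fun c hc => hxy c (by
      simp only [Finset.mem_union, Finset.mem_biUnion, Multiset.mem_toFinset]
      exact Or.inr ⟨G, hG, hc⟩)
    refine ⟨φ, fun P' hP' t => ?_⟩
    by_cases he : P' = G
    · subst he
      have es : ∀ z : ι → ℝ, MvPolynomial.eval z P'.leadingCoeff = 0 →
          spec z P'.eraseLead = spec z P' := fun z hz0 => by
        rw [spec, spec, ← self_sub_C_mul_X_pow, Polynomial.map_sub, Polynomial.map_mul,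
          map_C, hz0, map_zero, zero_mul, sub_zero]
      rw [← es x hx0, ← es y hy0]
      exact hφ _ (Multiset.mem_cons_self _ _) t
    · exact hφ _ (Multiset.mem_cons_of_mem ((Multiset.mem_erase_of_ne he).2 hP')) t
  push Not at hz
  have hxP : MvPolynomial.eval x P.leadingCoeff ≠ 0 := hz P hP hd
  have hyP : MvPolynomial.eval y P.leadingCoeff ≠ 0 := fun h => hxP (by
    have := hlc P hP
    rw [h, sign_zero] at this
    exact sign_eq_zero_iff.1 this)
  obtain ⟨φ, hφ⟩ := hQ₂ x y fun c hc => hxy c (Finset.mem_union_left _ (Finset.mem_union_left _ hc))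
  have hmemE : ∀ G ∈ E, G ∈ F₂ := fun G hG => Multiset.mem_add.2 (Or.inl hG)
  have hEx : ∀ G ∈ E, 0 < G.natDegree → MvPolynomial.eval x G.leadingCoeff ≠ 0 ∧
      MvPolynomial.eval y G.leadingCoeff ≠ 0 := by
    intro G hG hG0
    rw [hE, Multiset.mem_cons] at hG
    rcases hG with rfl | hG
    · have hc : (derivative P).coeff (P.natDegree - 1)
          = P.leadingCoeff * (P.natDegree : MvPolynomial ι ℝ) := by
        rw [coeff_derivative, show P.natDegree - 1 + 1 = P.natDegree by omega, coeff_natDegree]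
        congr 1
        exact_mod_cast congrArg (Nat.cast : ℕ → MvPolynomial ι ℝ)
          (show P.natDegree - 1 + 1 = P.natDegree by omega)
      have hne : ∀ z : ι → ℝ, MvPolynomial.eval z P.leadingCoeff ≠ 0 →
          MvPolynomial.eval z ((derivative P).coeff (P.natDegree - 1)) ≠ 0 := fun z hz0 => by
        rw [hc, map_mul, map_natCast]
        exact mul_ne_zero hz0 (Nat.cast_ne_zero.2 (by omega))
      have hdeg : (derivative P).natDegree = P.natDegree - 1 := by
        refine le_antisymm (by omega) (le_natDegree_of_ne_zero fun h => hne x hxP ?_)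
        rw [h, map_zero]
      rw [leadingCoeff, hdeg]
      exact ⟨hne x hxP, hne y hyP⟩
    · have hGF := Multiset.mem_of_mem_erase hG
      refine ⟨hz G hGF hG0, fun h => hz G hGF hG0 ?_⟩
      have := hlc G hGF
      rw [h, sign_zero] at this
      exact sign_eq_zero_iff.1 this
  obtain ⟨ψ, hψ, hψP⟩ := exists_extend (J := ↥E.toFinset) (fun G => spec x G.1)
    (fun G => spec y G.1) φ (fun G t => hφ G.1 (hmemE _ (Multiset.mem_toFinset.1 G.2)) t)
    (spec x P) (spec y P)
    ⟨derivative P, Multiset.mem_toFinset.2 (Multiset.mem_cons_self _ _)⟩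
    (derivative_map P _).symm (derivative_map P _).symm
    (by rw [spec, spec, natDegree_map_of_leadingCoeff_ne_zero _ hxP,
      natDegree_map_of_leadingCoeff_ne_zero _ hyP])
    (by rw [spec, spec, leadingCoeff_map_of_leadingCoeff_ne_zero _ hxP,
      leadingCoeff_map_of_leadingCoeff_ne_zero _ hyP]; exact hlc P hP)
    (by
      rintro ⟨G, hG⟩ t hne h0
      rw [Multiset.mem_toFinset] at hG
      simp only at hne h0
      rcases Nat.eq_zero_or_pos G.natDegree with hG0 | hG0
      · rw [spec, eq_C_of_natDegree_eq_zero hG0, map_C, eval_C] at h0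
        exact absurd (by rw [spec, eq_C_of_natDegree_eq_zero hG0, map_C, h0, map_zero]) hne
      obtain ⟨hx, hy⟩ := hEx G hG hG0
      have h0' : (spec y G).eval (φ t) = 0 :=
        sgnAt_eq_zero.1 ((hφ G (hmemE G hG) t).symm.trans (sgnAt_eq_zero.2 h0))
      have hsg : ∀ (z : ι → ℝ) (s : ℝ), MvPolynomial.eval z G.leadingCoeff ≠ 0 →
          (spec z G).eval s = 0 → sgnAt (spec z P) s = sgnAt (spec z (RG G)) s := by
        intro z s hz0 hs
        have e := congrArg (fun T => (spec z T).eval s) (hRG G hG0).1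
        simp only [spec, Polynomial.map_mul, Polynomial.map_add, map_C, eval_mul, eval_add,
          eval_C, eval_pow, map_pow, Polynomial.map_pow] at e
        simp only [spec] at hs
        rw [hs, mul_zero, zero_add] at e
        rw [sgnAt, sgnAt, spec, spec, ← e, sign_mul,
          sign_pos (a := MvPolynomial.eval z G.leadingCoeff ^ (2 * kG G)), one_mul]
        rw [pow_mul]
        positivity
      rw [hsg x t hx h0, hsg y (φ t) hy h0']
      exact hφ _ (Multiset.mem_add.2 (Or.inr
        (Multiset.mem_map_of_mem _ (Multiset.mem_filter.2 ⟨hG, hG0⟩)))) t)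
  refine ⟨ψ, fun G hG t => ?_⟩
  by_cases he : G = P
  · subst he; exact hψP t
  · exact hψ ⟨G, Multiset.mem_toFinset.2
      (Multiset.mem_cons_of_mem ((Multiset.mem_erase_of_ne he).2 hG))⟩ t

/-- Elimination of one variable. -/
theorem SA.exists_one {S : Set (Option ι → ℝ)} (h : SA S) :
    SA {x : ι → ℝ | ∃ t : ℝ, (fun o => o.elim t x) ∈ S} := by
  obtain ⟨l, P, T, hT⟩ := h
  obtain ⟨Q, hQ⟩ := exists_table
    ((Finset.univ : Finset (Fin l)).val.map fun i => MvPolynomial.optionEquivLeft ℝ ι (P i))
  refine SA.of_determined (fun c : Q => c.1) fun x y hxy hx => ?_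
  obtain ⟨t, ht⟩ := hx
  obtain ⟨φ, hφ⟩ := hQ x y fun c hc => hxy ⟨c, hc⟩
  refine ⟨φ t, ?_⟩
  rw [hT] at ht ⊢
  convert ht using 1
  funext i
  rw [MvPolynomial.optionEquivLeft_elim_eval, MvPolynomial.optionEquivLeft_elim_eval]
  exact (hφ _ (Multiset.mem_map_of_mem _ (Finset.mem_univ_val i)) t).symm

theorem SA.exists_fin : ∀ (n : ℕ) {ι : Type} [Fintype ι] {S : Set (ι ⊕ Fin n → ℝ)}, SA S →
    SA {x : ι → ℝ | ∃ t : Fin n → ℝ, Sum.elim x t ∈ S}
  | 0, ι, _, S, h => by
    refine (h.reindex (Sum.elim id fun i => i.elim0)).congr fun x => ⟨?_, fun hx => ?_⟩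
    · rintro ⟨t, ht⟩
      simp only [Set.mem_ofPred_eq]
      convert ht using 1
      funext o
      rcases o with i | i
      · rfl
      · exact i.elim0
    · refine ⟨fun i => i.elim0, ?_⟩
      simp only [Set.mem_ofPred_eq] at hx
      convert hx using 1
      funext o
      rcases o with i | i
      · rfl
      · exact i.elim0
  | n + 1, ι, _, S, h => by
    have h1 := (h.reindex (ι := Option (ι ⊕ Fin n))
      (Sum.elim (fun i => some (Sum.inl i)) (Fin.cons none fun j => some (Sum.inr j)))).exists_one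
    refine (SA.exists_fin n h1).congr fun x => ?_
    have e : ∀ (t₀ : ℝ) (t : Fin n → ℝ), (fun o : Option (ι ⊕ Fin n) => o.elim t₀ (Sum.elim x t)) ∘
        (Sum.elim (fun i => some (Sum.inl i)) (Fin.cons none fun j => some (Sum.inr j)))
        = Sum.elim x (Fin.cons t₀ t) := fun t₀ t => by
      funext o
      rcases o with i | i
      · rfl
      · refine Fin.cases ?_ ?_ i <;> simp
    constructor
    · rintro ⟨t, ht⟩
      refine ⟨Fin.tail t, t 0, ?_⟩
      show _ ∈ S
      rw [e, Fin.cons_self_tail]; exact ht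
    · rintro ⟨t, t₀, ht⟩
      exact ⟨Fin.cons t₀ t, e t₀ t ▸ ht⟩

/-- Projections of semialgebraic sets are semialgebraic. -/
theorem saProj : SAProjStmt := by
  intro ι κ _ _ S hS
  set e := Fintype.equivFin κ
  refine (SA.exists_fin _ (hS.reindex (ι := ι ⊕ Fin (Fintype.card κ)) (Sum.map id e))).congr
    fun x => ⟨?_, ?_⟩
  · rintro ⟨t, ht⟩
    refine ⟨t ∘ e.symm, ?_⟩
    show _ ∈ S
    convert ht using 1
    funext o
    rcases o with i | i <;> simp
  · rintro ⟨t, ht⟩
    refine ⟨t ∘ e, ?_⟩
    simp only [Set.mem_ofPred_eq] at ht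
    convert ht using 1
    funext o
    rcases o with i | i <;> simp

end

end Vale.Agent.P274.Full
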